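import Mathlib
import Vale.Agent.Lib.P137.helper41.Defs

namespace Vale.Agent.Lib.P137.H85

open Vale.Agent.Lib.P137 MeasureTheory Metric
open scoped ENNReal

theorem cmax_le_of {d : ℕ} (hd : 1 ≤ d) (F : ℝ → ℝ≥0∞) (hF : Antitone F)
    (hanti : ∀ s t : ℝ, 0 < s → s ≤ t → cavg d F t ≤ cavg d F s) (x : E d) (hx : x ≠ 0) :
    cmax (fun z : E d => F ‖z‖) x ≤ F (1 / 2 * ‖x‖) + 3 ^ d * cavg d F (3 / 2 * ‖x‖) := by
  have _hd1 : 1 ≤ d := hd
  unfold cmax
  refine iSup₂_le fun r hr => ?_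
  have hxpos : 0 < ‖x‖ := norm_pos_iff.mpr hx
  by_cases hcase : r ≤ ‖x‖ / 2
  · have h1 : ∫⁻ z in ball x r, F ‖z‖ ≤ F (1 / 2 * ‖x‖) * volume (ball x r) := by
      calc ∫⁻ z in ball x r, F ‖z‖ ≤ ∫⁻ _ in ball x r, F (1 / 2 * ‖x‖) := by
            apply setLIntegral_mono' measurableSet_ball
            intro z hz
            apply hF
            have hz' : ‖z - x‖ < r := by
              rw [← dist_eq_norm]
              exact hz
            have h2 : ‖x‖ - ‖z‖ ≤ ‖x - z‖ := norm_sub_norm_le x z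
            rw [norm_sub_rev] at h2
            linarith
        _ = F (1 / 2 * ‖x‖) * volume (ball x r) := by
            rw [setLIntegral_const]
    calc (∫⁻ z in ball x r, F ‖z‖) / volume (ball x r)
        ≤ F (1 / 2 * ‖x‖) := ENNReal.div_le_of_le_mul h1
      _ ≤ F (1 / 2 * ‖x‖) + 3 ^ d * cavg d F (3 / 2 * ‖x‖) := le_self_add
  · have hcase' : ‖x‖ / 2 < r := not_le.mp hcase
    have hsub : ball x r ⊆ ball (0 : E d) (3 * r) := by
      intro z hz
      rw [mem_ball, dist_zero_right]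
      have hz' : ‖z - x‖ < r := by
        rw [← dist_eq_norm]
        exact hz
      have h3 : ‖z‖ ≤ ‖z - x‖ + ‖x‖ := by
        have h4 := norm_add_le (z - x) x
        rwa [sub_add_cancel] at h4
      linarith
    have h1 : ∫⁻ z in ball x r, F ‖z‖ ≤ ∫⁻ z in ball (0 : E d) (3 * r), F ‖z‖ :=
      lintegral_mono_set hsub
    have h3r : (0 : ℝ) < 3 * r := by positivity
    have hvol : volume (ball (0 : E d) (3 * r)) = 3 ^ d * volume (ball x r) := by
      have e1 := Measure.addHaar_ball_of_pos (volume : Measure (E d)) (0 : E d) h3r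
      have e2 := Measure.addHaar_ball_of_pos (volume : Measure (E d)) x hr
      have e3 : ENNReal.ofReal ((3 * r) ^ d) = 3 ^ d * ENNReal.ofReal (r ^ d) := by
        rw [mul_pow, ENNReal.ofReal_mul (by positivity),
          ENNReal.ofReal_pow (by norm_num : (0 : ℝ) ≤ 3) d, ENNReal.ofReal_ofNat]
      rw [e1, e2, finrank_euclideanSpace_fin, e3, mul_assoc]
    have h3 : (3 : ℝ≥0∞) ^ d ≠ 0 := pow_ne_zero _ (by norm_num)
    have h3' : (3 : ℝ≥0∞) ^ d ≠ ∞ := ENNReal.pow_ne_top (by norm_num)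
    have key : (∫⁻ z in ball (0 : E d) (3 * r), F ‖z‖) / volume (ball x r)
        = 3 ^ d * cavg d F (3 * r) := by
      unfold cavg
      rw [hvol]
      calc (∫⁻ z in ball (0 : E d) (3 * r), F ‖z‖) / volume (ball x r)
          = (3 ^ d * (3 ^ d)⁻¹) * ((∫⁻ z in ball (0 : E d) (3 * r), F ‖z‖) / volume (ball x r)) := by
            rw [ENNReal.mul_inv_cancel h3 h3', one_mul]
        _ = 3 ^ d * ((∫⁻ z in ball (0 : E d) (3 * r), F ‖z‖) / (3 ^ d * volume (ball x r))) := by
            rw [ENNReal.div_eq_inv_mul, ENNReal.div_eq_inv_mul,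
              ENNReal.mul_inv (Or.inl h3) (Or.inl h3')]
            ring
    calc (∫⁻ z in ball x r, F ‖z‖) / volume (ball x r)
        ≤ (∫⁻ z in ball (0 : E d) (3 * r), F ‖z‖) / volume (ball x r) :=
          ENNReal.div_le_div_right h1 _
      _ = 3 ^ d * cavg d F (3 * r) := key
      _ ≤ 3 ^ d * cavg d F (3 / 2 * ‖x‖) := by
          gcongr
          exact hanti _ _ (by positivity) (by linarith)
      _ ≤ F (1 / 2 * ‖x‖) + 3 ^ d * cavg d F (3 / 2 * ‖x‖) := le_add_self

end Vale.Agent.Lib.P137.H85
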