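import Mathlib
import Vale.Agent.Lib.P137.helper41.Defs

namespace Vale.Agent.Lib.P137.H85

open Vale.Agent.Lib.P137 MeasureTheory Metric Set Filter
open scoped ENNReal NNReal Topology

theorem abs_deriv_le_enorm_fderiv_radial {d : ℕ} (F : ℝ → ℝ) (x : E d) (hx : x ≠ 0) :
    ENNReal.ofReal |deriv F ‖x‖| ≤ ‖fderiv ℝ (fun z : E d => F ‖z‖) x‖ₑ := by
  by_cases hF : DifferentiableAt ℝ F ‖x‖
  · have hnorm : DifferentiableAt ℝ (fun z : E d => ‖z‖) x := differentiableAt_id.norm ℝ hx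
    have hf : DifferentiableAt ℝ (fun z : E d => F ‖z‖) x := hF.comp x hnorm
    have ht0 : 0 < ‖x‖ := norm_pos_iff.mpr hx
    obtain ⟨v, hvdef⟩ : ∃ v : E d, v = ‖x‖⁻¹ • x := ⟨_, rfl⟩
    have hv : ‖v‖ = 1 := by
      rw [hvdef, norm_smul, norm_inv, norm_norm, inv_mul_cancel₀ ht0.ne']
    have hxv : ‖x‖ • v = x := by
      rw [hvdef, smul_smul, mul_inv_cancel₀ ht0.ne', one_smul]
    have hc : HasDerivAt (fun t : ℝ => t • v) v ‖x‖ := by
      have h := (hasDerivAt_id ‖x‖).smul_const v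
      simpa using h
    have hfd : HasFDerivAt (fun z : E d => F ‖z‖) (fderiv ℝ (fun z : E d => F ‖z‖) x)
        (‖x‖ • v) := by
      rw [hxv]
      exact hf.hasFDerivAt
    have hcomp' : HasDerivAt ((fun z : E d => F ‖z‖) ∘ fun t : ℝ => t • v)
        ((fderiv ℝ (fun z : E d => F ‖z‖) x) v) ‖x‖ := hfd.comp_hasDerivAt ‖x‖ hc
    have hcomp : HasDerivAt (fun t : ℝ => F ‖t • v‖)
        ((fderiv ℝ (fun z : E d => F ‖z‖) x) v) ‖x‖ := hcomp'
    have hev : F =ᶠ[𝓝 ‖x‖] fun t : ℝ => F ‖t • v‖ := by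
      filter_upwards [lt_mem_nhds ht0] with t ht
      rw [norm_smul, hv, mul_one, Real.norm_eq_abs, abs_of_pos ht]
    have hder : HasDerivAt F ((fderiv ℝ (fun z : E d => F ‖z‖) x) v) ‖x‖ :=
      hcomp.congr_of_eventuallyEq hev
    rw [hder.deriv, ← ofReal_norm]
    apply ENNReal.ofReal_le_ofReal
    have h := (fderiv ℝ (fun z : E d => F ‖z‖) x).le_opNorm v
    rw [hv, mul_one, Real.norm_eq_abs] at h
    exact h
  · rw [deriv_zero_of_not_differentiableAt hF]
    simp

theorem enorm_fderiv_radial_le {d : ℕ} (u : E d → ℝ) (G : ℝ → ℝ) (hu : ∀ x, u x = G ‖x‖)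
    (x : E d) : ‖fderiv ℝ u x‖ₑ ≤ ENNReal.ofReal |deriv G ‖x‖| := by
  by_cases hdu : DifferentiableAt ℝ u x
  · by_cases hx : x = 0
    · subst hx
      have heven : (fun z : E d => u (-z)) = u := by
        funext z
        rw [hu, hu, norm_neg]
      have h1 : HasFDerivAt u (fderiv ℝ u 0) (0 : E d) := hdu.hasFDerivAt
      have h2 : HasFDerivAt (fun z : E d => u (-z))
          ((fderiv ℝ u 0).comp (-(ContinuousLinearMap.id ℝ (E d)))) (0 : E d) := by
        have hneg : HasFDerivAt (fun z : E d => -z) (-(ContinuousLinearMap.id ℝ (E d)))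
            (0 : E d) := (hasFDerivAt_id (0 : E d)).neg
        have h1' : HasFDerivAt u (fderiv ℝ u 0) (-(0 : E d)) := by
          rw [neg_zero]
          exact h1
        exact h1'.comp (0 : E d) hneg
      rw [heven] at h2
      have huniq := h1.unique h2
      have hzero : fderiv ℝ u 0 = 0 := by
        ext w
        have h3 := congrArg (fun L : E d →L[ℝ] ℝ => L w) huniq
        have h5 : (fderiv ℝ u 0) w = -((fderiv ℝ u 0) w) := by
          simpa using h3
        have h6 : (fderiv ℝ u 0) w = 0 := by linarith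
        simpa using h6
      rw [hzero, ← ofReal_norm, norm_zero, ENNReal.ofReal_zero]
      exact zero_le
    · have ht0 : 0 < ‖x‖ := norm_pos_iff.mpr hx
      obtain ⟨v, hvdef⟩ : ∃ v : E d, v = ‖x‖⁻¹ • x := ⟨_, rfl⟩
      have hv : ‖v‖ = 1 := by
        rw [hvdef, norm_smul, norm_inv, norm_norm, inv_mul_cancel₀ ht0.ne']
      have hxv : ‖x‖ • v = x := by
        rw [hvdef, smul_smul, mul_inv_cancel₀ ht0.ne', one_smul]
      have hc : HasDerivAt (fun t : ℝ => t • v) v ‖x‖ := by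
        have h := (hasDerivAt_id ‖x‖).smul_const v
        simpa using h
      have hfd : HasFDerivAt u (fderiv ℝ u x) (‖x‖ • v) := by
        rw [hxv]
        exact hdu.hasFDerivAt
      have hcomp : HasDerivAt (fun t : ℝ => u (t • v)) ((fderiv ℝ u x) v) ‖x‖ :=
        hfd.comp_hasDerivAt ‖x‖ hc
      have hev : G =ᶠ[𝓝 ‖x‖] fun t : ℝ => u (t • v) := by
        filter_upwards [lt_mem_nhds ht0] with t ht
        rw [hu, norm_smul, hv, mul_one, Real.norm_eq_abs, abs_of_pos ht]
      have hG : HasDerivAt G ((fderiv ℝ u x) v) ‖x‖ := hcomp.congr_of_eventuallyEq hev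
      have hnorm : HasFDerivAt (fun z : E d => ‖z‖) (fderiv ℝ (fun z : E d => ‖z‖) x) x :=
        (differentiableAt_id.norm ℝ hx).hasFDerivAt
      have hcomp2 : HasFDerivAt (G ∘ fun z : E d => ‖z‖)
          (((fderiv ℝ u x) v) • fderiv ℝ (fun z : E d => ‖z‖) x) x :=
        hG.comp_hasFDerivAt x hnorm
      have hueq : u = G ∘ fun z : E d => ‖z‖ := funext hu
      have h3 : HasFDerivAt u (((fderiv ℝ u x) v) • fderiv ℝ (fun z : E d => ‖z‖) x) x := by
        have h4 := hcomp2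
        rw [← hueq] at h4
        exact h4
      have hfd2 : fderiv ℝ u x = ((fderiv ℝ u x) v) • fderiv ℝ (fun z : E d => ‖z‖) x :=
        hdu.hasFDerivAt.unique h3
      have hL : ‖fderiv ℝ (fun z : E d => ‖z‖) x‖ ≤ 1 := by
        have h := norm_fderiv_le_of_lipschitz ℝ (lipschitzWith_one_norm (E := E d)) (x₀ := x)
        simpa using h
      rw [← ofReal_norm]
      apply ENNReal.ofReal_le_ofReal
      rw [hfd2, norm_smul, Real.norm_eq_abs, hG.deriv]
      calc |(fderiv ℝ u x) v| * ‖fderiv ℝ (fun z : E d => ‖z‖) x‖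
          ≤ |(fderiv ℝ u x) v| * 1 := by gcongr
        _ = |(fderiv ℝ u x) v| := mul_one _
  · rw [fderiv_zero_of_not_differentiableAt hdu, ← ofReal_norm, norm_zero, ENNReal.ofReal_zero]
    exact zero_le

end Vale.Agent.Lib.P137.H85
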